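import Vale.Agent.P030.H250.Geo3

/-!
# P030, route N: the geometry of the frozen table v1 (helper69; written by p69_geo.py, mk_lean.py)

Upper tree, integer walls, radii of the cusp circles, chains of pieces of every wall with the list of
comparisons `(c, b)` : `W c ≤ W b` needed on the piece, pattern lists.  All checks of helper250's
`Geom` by the kernel.
-/

open Vale.Agent.P030.H580 (WTree)
open Vale.Agent.P030.H532 Vale.Agent.P030.H250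

namespace Vale.Agent.P030.H69.V1

/-- the tree of the closed upper half plane; leaves = frames F0 .. F9 of helper390 -/
def TU : WTree (Fin 7) (Fin 10) :=
  .node 0 (.node 1 (.leaf 4) (.node 2 (.leaf 0) (.node 3 (.leaf 8) (.node 4 (.node 5 (.node 6 (.leaf 1) (.leaf 2)) (.leaf 3)) (.node 5 (.node 6 (.leaf 6) (.leaf 7)) (.leaf 5)))))) (.leaf 9)

/-- the walls -/
def wi : Fin 7 → Wall :=
  ![⟨16, -96, 0, -2457⟩,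
    ⟨40000, -80000, 0, 39639⟩,
    ⟨1000000, -1000000, 0, 249951⟩,
    ⟨160000, 28800, 0, -4945⟩,
    ⟨1600, -2560, -480, 835⟩,
    ⟨625, 0, 0, -324⟩,
    ⟨40000, 0, 0, -10609⟩]

/-- radii of the cusp circles -/
def rn : Fin 4 → ℕ := ![1, 1, 1, 1024]
def rd : Fin 4 → ℕ := ![128, 512, 2048, 1]

/-- wall 0 -/
def ch0 : WChP :=
  ⟨⟨16, -96, 0, -2457⟩, ⟨63, 0, 0, 39, 4, 0, 0, -4⟩, ⟨-1, 680000⟩, [
    (⟨⟨680000, -1⟩, 0, 16777216⟩, [(4, 3), (5, 3), (6, 3), (7, 3)]),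
    (⟨⟨1, -680000⟩, 0, 16777216⟩, [])]⟩

/-- wall 1 -/
def ch1 : WChP :=
  ⟨⟨40000, -80000, 0, 39639⟩, ⟨219, 0, 0, -181, 200, 0, 0, -200⟩, ⟨-1, 5067⟩, [
    (⟨⟨5067, -1⟩, 0, 16777216⟩, [(4, 3), (5, 3), (6, 3)]),
    (⟨⟨1, -5067⟩, 0, 16777216⟩, [])]⟩

/-- wall 2 -/
def ch2 : WChP :=
  ⟨⟨1000000, -1000000, 0, 249951⟩, ⟨507, 0, 0, -493, 1000, 0, 0, -1000⟩, ⟨-1, 374⟩, [
    (⟨⟨374, -1⟩, 0, 16777216⟩, [(4, 3), (5, 3), (6, 3), (7, 3), (7, 6)]),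
    (⟨⟨1, -374⟩, 0, 16777216⟩, [])]⟩

/-- wall 3 -/
def ch3 : WChP :=
  ⟨⟨160000, 28800, 0, -4945⟩, ⟨43, 0, 0, 115, 400, 0, 0, -400⟩, ⟨-1, 10534⟩, [
    (⟨⟨10534, -1⟩, 0, 16777216⟩, [(4, 3), (5, 3), (6, 3), (7, 3)]),
    (⟨⟨1, -10534⟩, 0, 16777216⟩, [])]⟩

/-- wall 4 -/
def ch4 : WChP :=
  ⟨⟨1600, -2560, -480, 835⟩, ⟨47, 6, 6, -17, 40, 0, 0, -40⟩, ⟨358, 173⟩, [
    (⟨⟨89, 43⟩, 0, 16777216⟩, [(2, 1), (3, 1), (5, 1), (3, 2), (5, 2)]),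
    (⟨⟨155, 24⟩, 0, 16777216⟩, [(3, 2), (5, 2)]),
    (⟨⟨84, 13⟩, 0, 16777216⟩, [(3, 2), (5, 2), (5, 4), (6, 4), (7, 4), (7, 6)]),
    (⟨⟨297, -62⟩, 0, 16777216⟩, [(3, 2), (5, 2)]),
    (⟨⟨62, -297⟩, 0, 16777216⟩, []),
    (⟨⟨-358, -173⟩, 0, 16777216⟩, [(3, 2), (5, 2)])]⟩

/-- wall 5 -/
def ch5 : WChP :=
  ⟨⟨625, 0, 0, -324⟩, ⟨18, 0, 0, 18, 25, 0, 0, -25⟩, ⟨-1, 38400⟩, [
    (⟨⟨861, 2497⟩, 0, 16777216⟩, [(2, 1)]),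
    (⟨⟨38400, -1⟩, 0, 16777216⟩, [(2, 1), (3, 1), (5, 1)]),
    (⟨⟨1, -38400⟩, 0, 16777216⟩, [])]⟩

/-- wall 6 -/
def ch6 : WChP :=
  ⟨⟨40000, 0, 0, -10609⟩, ⟨103, 0, 0, 103, 200, 0, 0, -200⟩, ⟨-1, 27467⟩, [
    (⟨⟨27467, -1⟩, 0, 16777216⟩, [(5, 4), (6, 4), (7, 4), (7, 6)]),
    (⟨⟨1, -27467⟩, 0, 16777216⟩, [])]⟩

/-- the real line -/
def chA : WChP :=
  ⟨imW, ⟨0, 0, 1, 0, 1, 0, 0, 0⟩, ⟨-17400, 17⟩, [
    (⟨⟨-81286, 8337⟩, 0, 1073741824⟩, [(2, 0), (3, 1), (4, 1), (6, 1), (7, 1), (6, 5), (7, 5), (7, 6)]),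
    (⟨⟨-81266, 8335⟩, 0, 1073741824⟩, [(2, 0), (3, 1), (4, 1), (5, 1), (6, 1), (7, 1), (6, 5), (7, 5), (7, 6)]),
    (⟨⟨-86, 167⟩, 0, 1073741824⟩, [(2, 0), (3, 1), (5, 1), (6, 1), (7, 1), (6, 5), (7, 5), (7, 6)]),
    (⟨⟨-136, 473⟩, 0, 1073741824⟩, [(2, 0), (3, 1), (5, 1), (6, 1), (7, 1), (6, 5)]),
    (⟨⟨-140, 487⟩, 0, 1073741824⟩, [(2, 0), (3, 1), (4, 1), (5, 1), (6, 1), (7, 1), (6, 5)]),
    (⟨⟨-17, 34817⟩, 0, 1073741824⟩, [(2, 0), (3, 1), (4, 1), (6, 5)]),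
    (⟨⟨17, 34817⟩, 0, 1073741824⟩, []),
    (⟨⟨23, 214⟩, 0, 1073741824⟩, [(4, 2)]),
    (⟨⟨167, 366⟩, 0, 1073741824⟩, [(4, 2), (6, 3)]),
    (⟨⟨106, 215⟩, 0, 1073741824⟩, [(3, 2), (4, 2), (5, 2), (6, 2), (6, 3)]),
    (⟨⟨16703, 33537⟩, 0, 1073741824⟩, [(3, 2), (5, 2), (6, 2)]),
    (⟨⟨16834, 33537⟩, 0, 1073741824⟩, []),
    (⟨⟨109, 215⟩, 0, 1073741824⟩, []),
    (⟨⟨86, 167⟩, 0, 1073741824⟩, [(6, 3), (7, 3), (7, 6)]),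
    (⟨⟨120, 233⟩, 0, 1073741824⟩, [(6, 3), (7, 3), (6, 4), (7, 6)]),
    (⟨⟨162, 179⟩, 0, 1073741824⟩, [(6, 3), (6, 4)]),
    (⟨⟨33148, 33409⟩, 0, 1073741824⟩, [(6, 4)]),
    (⟨⟨33670, 33409⟩, 0, 1073741824⟩, []),
    (⟨⟨196, 179⟩, 0, 1073741824⟩, [(3, 2), (6, 5)]),
    (⟨⟨191, 167⟩, 0, 1073741824⟩, [(3, 2), (4, 2), (5, 2), (6, 2), (6, 5)]),
    (⟨⟨17417, 17⟩, 0, 1073741824⟩, [(4, 2), (6, 5)]),
    (⟨⟨17400, -17⟩, 0, 1073741824⟩, [])]⟩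

/-- cusp circle 0 -/
def cc0 : WChP :=
  ⟨cwI 0 1 128, ⟨129, 0, 0, -127, 128, 0, 0, -128⟩, ⟨-1, 53334⟩, [
    (⟨⟨53334, -1⟩, 0, 16777216⟩, [(3, 2), (6, 4), (6, 5)]),
    (⟨⟨1, -53334⟩, 0, 16777216⟩, [])]⟩

/-- cusp circle 1 -/
def cc1 : WChP :=
  ⟨cwI 1 1 512, ⟨257, 0, 0, -255, 512, 0, 0, -512⟩, ⟨-1, 53334⟩, [
    (⟨⟨53334, -1⟩, 0, 16777216⟩, [(3, 2), (5, 2), (6, 2)]),
    (⟨⟨1, -53334⟩, 0, 16777216⟩, [])]⟩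

/-- cusp circle 2 -/
def cc2 : WChP :=
  ⟨cwI 2 1 2048, ⟨1, 0, 0, 1, 2048, 0, 0, -2048⟩, ⟨-1, 53334⟩, [
    (⟨⟨53334, -1⟩, 0, 16777216⟩, [(2, 0), (4, 0), (3, 1), (4, 1), (4, 2), (6, 5)]),
    (⟨⟨1, -53334⟩, 0, 16777216⟩, [])]⟩

/-- cusp circle 3 -/
def cc3 : WChP :=
  ⟨cwI 3 1024 1, ⟨2049, 0, 0, 2047, 2, 0, 0, -2⟩, ⟨-1, 53334⟩, [
    (⟨⟨53334, -1⟩, 0, 16777216⟩, [(2, 0), (4, 0), (3, 1), (4, 1), (6, 1), (7, 1), (4, 2), (6, 5), (7, 5), (7, 6)]),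
    (⟨⟨1, -53334⟩, 0, 16777216⟩, [])]⟩

def chW : Fin 7 → WChP := ![ch0, ch1, ch2, ch3, ch4, ch5, ch6]
def chC : Fin 4 → WChP := ![cc0, cc1, cc2, cc3]

/-- patterns of two upper cells (0-based levels), both directions -/
def lI : List ((ℕ × ℕ) × List (ℕ × ℕ)) :=
  [((0, 1), [(3, 4), (3, 5), (3, 6), (3, 7), (6, 7)]),
    ((1, 2), [(4, 5), (4, 6), (4, 7), (6, 7)]),
    ((6, 7), [(4, 5), (4, 6), (4, 7), (6, 7)]),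
    ((1, 6), [(2, 3), (2, 5)]),
    ((2, 7), [(2, 3), (2, 5)]),
    ((3, 5), [(2, 3), (2, 5)]),
    ((2, 3), [(1, 2)]),
    ((3, 4), [(3, 4), (3, 5), (3, 6)]),
    ((5, 7), [(1, 2), (1, 3), (1, 5)]),
    ((5, 9), [(3, 4), (3, 5), (3, 6), (3, 7)]),
    ((6, 8), [(3, 4), (3, 5), (3, 6), (3, 7)]),
    ((2, 5), [(1, 2), (1, 3), (1, 5), (2, 3), (2, 5)]),
    ((3, 7), [(1, 2), (1, 3), (1, 5), (2, 3), (2, 5)]),
    ((1, 7), [(2, 3), (2, 5), (4, 5), (4, 6), (4, 7), (6, 7)]),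
    ((2, 6), [(2, 3), (2, 5), (4, 5), (4, 6), (4, 7), (6, 7)])]

/-- patterns on the real line: (interval, cell) -/
def lR : List ((ℕ × ℕ) × List (ℕ × ℕ)) :=
  [((0, 0), [(2, 3), (2, 5), (2, 6)]),
    ((0, 1), [(2, 3), (2, 4), (2, 5), (2, 6), (3, 6)]),
    ((0, 6), [(2, 4), (3, 6)]),
    ((0, 8), [(2, 4)]),
    ((1, 0), []),
    ((1, 1), [(3, 6), (3, 7), (6, 7)]),
    ((1, 2), [(3, 6), (4, 6)]),
    ((1, 3), [(3, 6), (4, 6)]),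
    ((1, 4), [(4, 6)]),
    ((2, 3), [(2, 3), (2, 4), (2, 5), (2, 6), (5, 6)]),
    ((2, 4), [(2, 3), (5, 6)]),
    ((2, 5), [(2, 4), (5, 6)]),
    ((2, 9), [(2, 4), (5, 6)]),
    ((3, 5), [(0, 2), (1, 3), (1, 5), (1, 6), (1, 7), (5, 6), (5, 7), (6, 7)]),
    ((3, 7), [(0, 2), (1, 3), (1, 5), (1, 6), (1, 7), (5, 6), (5, 7), (6, 7)]),
    ((3, 6), [(0, 2), (1, 3), (1, 5), (1, 6), (1, 7), (5, 6)]),
    ((3, 8), [(0, 2), (1, 3), (1, 4), (5, 6)]),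
    ((3, 9), [(0, 2), (1, 3), (1, 4), (1, 6), (1, 7), (5, 6), (5, 7), (6, 7)])]

/-- patterns at the cusp circles -/
def lC : List (List (ℕ × ℕ)) :=
  [[(2, 3), (4, 6), (5, 6)],
    [(2, 3), (2, 5), (2, 6)],
    [(0, 2), (0, 4), (1, 3), (1, 4), (2, 4), (5, 6)],
    [(0, 2), (0, 4), (1, 3), (1, 4), (1, 6), (1, 7), (2, 4), (5, 6), (5, 7), (6, 7)]]

/-- the cells around the discs -/
def kc : Fin 4 → Fin 10 := ![4, 0, 8, 9]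

/-- look up; everything is allowed when the key is missing -/
def lkp : List ((ℕ × ℕ) × List (ℕ × ℕ)) → ℕ × ℕ → ℕ × ℕ → Bool
  | [], _, _ => true
  | x :: l, k, p => if x.1 = k then x.2.contains p else lkp l k p

def pI (k k' : Fin 10) (b c : Fin 8) : Bool :=
  b == c || (lkp lI (k.val, k'.val) (b.val, c.val) && lkp lI (k'.val, k.val) (b.val, c.val))
def pR (q : Fin 4) (k : Fin 10) (b c : Fin 8) : Bool := b == c || lkp lR (q.val, k.val) (b.val, c.val)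
def pC (c : Fin 4) (k : Fin 10) (b b' : Fin 8) : Bool :=
  b == b' || !(k == kc c) || (lC.getD c.val []).contains (b.val, b'.val)

/-- the geometry -/
def G : Geom 10 7 8 :=
  ⟨TU, wi, rn, rd, fun j => (chW j).pps, chA.pps, fun c => (chC c).pps, pI, pR, pC⟩

theorem chW_ok : (List.finRange 7).all (fun j => (chW j).ok && decide ((chW j).w = wi j)) = true := by
  decide +kernel
theorem chA_ok : (chA.ok && decide (chA.w = imW)) = true := by decide +kernel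
theorem chC_ok : (List.finRange 4).all
    (fun c => (chC c).ok && decide ((chC c).w = cwI c (rn c) (rd c))) = true := by
  decide +kernel
theorem okW : (List.finRange 7).all (fun j => (wi j).okW) = true := by decide +kernel

theorem chkI : G.chkI = true := by decide +kernel
theorem chkA : G.chkA = true := by decide +kernel
theorem chkC : G.chkC = true := by decide +kernel

end Vale.Agent.P030.H69.V1
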